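import Vale.Agent.P257.V.Final
import Vale.Agent.P257.Q.Main
import Vale.Agent.P257.L.Facts
import Vale.Agent.P257.X.TowerOut
import Vale.Agent.P257.X.Fields
import Vale.Agent.P257.N.Num

/-! The existence of `V(0), ..., V(4)` for `p ≥ 11`, from the four small groups and `G2`. -/

namespace Vale.Agent.P257.F

open CategoryTheory Category Limits Pretriangulated MonoidalCategory Finset MvPolynomial
  TensorProduct Vale.Agent.P257.S Vale.Agent.P257.Q

universe v' u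

variable {p : ℕ} [hp : Fact p.Prime] {R : Type} [CommRing R] {B : S.BPBP p (MvPolynomial ℕ R)}
  {T : Type u} [Category.{v'} T] [HasZeroObject T] [Preadditive T]
  [HasShift T ℤ] [∀ n : ℤ, (shiftFunctor T n).Additive] [Pretriangulated T] [IsTriangulated T]
  [HasCountableCoproducts T] [MonoidalCategory T]
  {h : T ⥤ ModuleCat.{0} (MvPolynomial ℕ R)} [h.IsHomological]
  [PreservesColimitsOfShape (Discrete ℕ) h] {C : ∀ X, Comod B (h.obj X)}
  {κ : ∀ X Y, h.obj X →ₗ[MvPolynomial ℕ R] h.obj Y →ₗ[MvPolynomial ℕ R] h.obj (X ⊗ Y)}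
  {g : h.obj (𝟙_ T)}
  {E : ∀ X : T, ℕ → ℕ → ℤ → AddSubgroup (W (MvPolynomial ℕ R) ⊗[MvPolynomial ℕ R] h.obj X ×
      W (MvPolynomial ℕ R) ⊗[MvPolynomial ℕ R] h.obj X)}

theorem exists_V_le_four (hp11 : 11 ≤ p) (hP : PC.PFacts p) (hR : S.IsZp p R) (hB : B.v = gen (p : R))
    (hh : IsBPHomology (𝟙_ T) h C) (hκ : IsProduct h C κ g) (hE : IsANSS h C κ (IsFin p) E)
    (hX : IsExactTensor T)
    (b : W (MvPolynomial ℕ R)) (c : ℤ) (hc : ¬ (p : ℤ) ∣ c)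
    (hb : IsCocycle (C (𝟙_ T)) 2 (p ^ 2 * vdeg p 1) (b ⊗ₜ g))
    (toda : ((pow B 2 b (p - 1) * (shift B)^[2 * (p - 1)] (X (0, 0))) ⊗ₜ[MvPolynomial ℕ R] g,
      (c • pow B 2 (b₁ p (MvPolynomial ℕ R)) (p ^ 2 - p + 1)) ⊗ₜ[MvPolynomial ℕ R] g) ∈
        E (𝟙_ T) (2 * (p - 1) ^ 2 + 1) (2 * p - 1) ((p ^ 3 - p ^ 2 + 1) * vdeg p 1))
    (n : ℕ) (hn : n ≤ 4) :
    ∃ (V : T) (x : h.obj V), IsFin p V ∧ IsCyclic (C V) (n + 1) 0 x := by
  rcases Nat.lt_or_ge n 4 with h4 | h4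
  · obtain ⟨V, x, -, -, hF, hx, -, -⟩ := Vale.Agent.P257.V.exists_V_product hp11 hR hB hh hκ hE hX
      (m := n + 1) (by omega) (by omega)
    exact ⟨V, x, hF, hx⟩
  · obtain rfl : n = 4 := by omega
    obtain ⟨V, x, η, μ, hF, hx, hη, hμ⟩ := Vale.Agent.P257.V.exists_V_product hp11 hR hB hh hκ hE hX
      (m := 4) (by omega) (by omega)
    have hL : LFacts (C V) x := by
      have hdd := Vale.Agent.P257.V.hdd_of hE V
      refine P257L.lfacts hP (by omega) hR hB hx hdd fun s t w hw => ?_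
      obtain ⟨r, ρ, σ, d, L⟩ := P257L.exists_Lift (n := 3) hR hB hx hdd
      have h1 := cup_mem_Zk (deltaEta hκ.gen) hx.2.1 hx.2.2.1 (pairing_unit hκ hη hμ _)
        (pairing_deg hh.hom hκ) (mem_Zk.2 L.F0) (mem_Zk.2 hw)
      rw [mem_Zk, cup_gen hx.2.1 (pairing_unit hκ hη hμ x)] at h1
      have e : t + qd p p = qd p p + t := add_comm _ _
      rw [e, add_comm s 2]
      exact h1
    exact exists_V4_of_lfacts (by omega) hR hB hh hκ hE hF hx hη hμ hL b c hc hb toda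

end Vale.Agent.P257.F
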